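import Vale.Agent.P133.FinDim.Main
import Vale.Agent.P133.FinDim.DimZero

/-!
P133, Q1 for C*-algebras of finite ideal covering dimension.
-/

namespace Vale.Agent.Results.P133.FiniteCoveringDimension

open Vale.Agent.P133.FinDim

universe u

/-- If the lattice of closed two-sided ideals has finite stratified covering dimension, then weakly
purely infinite, purely infinite and strongly purely infinite coincide. The hypothesis holds with
dimension zero whenever compact ideals approximate all closed ideals (topological dimension
zero). -/
theorem result :
    (∀ (A : Type u) [NonUnitalCStarAlgebra A] [PartialOrder A] [StarOrderedRing A] (d : ℕ),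
      StratCoverDimLE A d →
        (IsWeaklyPurelyInfinite A ↔ IsPurelyInfinite A) ∧
          (IsPurelyInfinite A ↔ IsStronglyPurelyInfinite A)) ∧
      ∀ (A : Type u) [NonUnitalCStarAlgebra A] [PartialOrder A] [StarOrderedRing A],
        HasCompactIdealBasis A → StratCoverDimLE A 0 :=
  ⟨fun A _ _ _ d hd => notions_coincide_strat A d hd,
    fun _ _ _ _ hA => stratCoverDimLE_zero_of_basis hA⟩

end Vale.Agent.Results.P133.FiniteCoveringDimension
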