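import Vale.Agent.P133.NucDimGen.Main

/-!
P133, Q1 for all C*-algebras of finite nuclear dimension.
-/

namespace Vale.Agent.Results.P133.FiniteNuclearDimension

open Vale.Agent.P133.FinDim

universe u

/-- For every C*-algebra of finite nuclear dimension, weakly purely infinite, purely infinite and
strongly purely infinite coincide, whatever the ideal space. -/
theorem result :
    ∀ (A : Type u) [NonUnitalCStarAlgebra A] [PartialOrder A] [StarOrderedRing A],
      Vale.Agent.P133.NucDimGen.HasFiniteNuclearDimension A →
        (IsWeaklyPurelyInfinite A ↔ IsPurelyInfinite A) ∧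
          (IsPurelyInfinite A ↔ IsStronglyPurelyInfinite A) :=
  fun A _ _ _ hA => Vale.Agent.P133.NucDimGen.notions_coincide_nuclear A hA

end Vale.Agent.Results.P133.FiniteNuclearDimension
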