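import Vale.Agent.P133.Diag.Main

/-!
P133, Q1(a): in every purely infinite C*-algebra, the defining condition of strong pure
infiniteness holds at each pair in which one element has a generating projection.
-/

namespace Vale.Agent.Results.P133.GeneratingProjectionPairs

open Vale.Agent.P133.FinDim
open Vale.Agent.P133.Diag

universe u

/-- In a purely infinite C*-algebra the strong pure infiniteness condition holds at every pair
`(x, y)` such that the ideal of `x²` or of `y²` is, up to every `δ`, generated by a projection
nearly in `xAx`, resp. `yAy`. This covers all projections, and all full positive elements of a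
unital algebra. -/
theorem result :
    (∀ (A : Type u) [NonUnitalCStarAlgebra A] [PartialOrder A] [StarOrderedRing A],
      IsPurelyInfinite A → ∀ x y : A, 0 ≤ x → 0 ≤ y →
        (HasGenProjection x ∨ HasGenProjection y) → ∀ ε : ℝ, 0 < ε →
          ∃ s t : A, ‖star s * (x * x) * s - x * x‖ < ε ∧
            ‖star t * (y * y) * t - y * y‖ < ε ∧ ‖star s * x * y * t‖ < ε) ∧
      (∀ (A : Type u) [NonUnitalCStarAlgebra A] (x : A),
        IsStarProjection x → HasGenProjection x) ∧
      ∀ (U : Type u) [CStarAlgebra U] [PartialOrder U] [StarOrderedRing U],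
        IsPurelyInfinite U → ∀ x : U, 0 ≤ x →
          (∃ (n : ℕ) (l r : Fin n → U), ∑ i, l i * x * r i = 1) → HasGenProjection x :=
  ⟨fun _ _ _ _ hA _ _ hx hy h _ hε => split_of_genProjection_or hA hx hy h hε,
    fun _ _ _ hx => hasGenProjection_of_projection hx,
    fun _ _ _ _ hA _ hx ⟨_, _, _, h⟩ => hasGenProjection_of_full hA hx h⟩

end Vale.Agent.Results.P133.GeneratingProjectionPairs
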